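import Vale.Agent.P100.Box7Main

namespace Vale.Agent.Results.P100.BoxDimSeven

/-- For a box of subcritical exponents with `q < 1` in dimension seven the Lane–Emden system has
no positive entire solution. -/
theorem result (p q : ℝ) (hp : 41 / 10 ≤ p ∧ p ≤ 43 / 10) (hq : 43 / 50 ≤ q ∧ q ≤ 22 / 25) :
    ¬ ∃ u v : (Fin 7 → ℝ) → ℝ, ContDiffOn ℝ 2 u {0}ᶜ ∧ ContDiffOn ℝ 2 v {0}ᶜ ∧
      Continuous u ∧ Continuous v ∧ (∀ x, 0 < u x) ∧ (∀ x, 0 < v x) ∧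
      (∀ x, x ≠ 0 → ∑ i : Fin 7,
        fderiv ℝ (fun y => fderiv ℝ u y (Pi.single i 1)) x (Pi.single i 1) = -(v x ^ p)) ∧
      (∀ x, x ≠ 0 → ∑ i : Fin 7,
        fderiv ℝ (fun y => fderiv ℝ v y (Pi.single i 1)) x (Pi.single i 1) = -(u x ^ q)) := by
  rintro ⟨u, v, h1, h2, h3, h4, h5, h6, h7, h8⟩
  exact Vale.Agent.P100.Box7.no_solution hp hq
    ⟨u, v, ⟨h1, h2, h3, h4, h5, h6, fun x hx => h7 x hx, fun x hx => h8 x hx⟩⟩

end Vale.Agent.Results.P100.BoxDimSeven
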