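import Vale.Agent.P100.Four.Main
import Vale.Agent.P100.Weighted.Low
import Vale.Agent.P100.Weighted.Main
import Vale.Agent.P100.Weighted.Thin

namespace Vale.Agent.Results.P100.WeightedStrip

open Vale.Agent.P100

/-- The Hénon–Lane–Emden system has no positive entire solution for subcritical parameters if
`n = 2`, or `pq ≤ 1`, or `n = 4` and either both weights are at most `-1/5` or `α + β ≥ 20/9`,
or `n ≥ 5` and either both weights are at most `-2/(3n)` or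
`α + β ≥ n - 2 + 3 n / (10 (n + 2))`.
Here `α = 2(p+1)/(pq-1)` and `β = 2(q+1)/(pq-1)`. -/
theorem result (n : ℕ) (hn : 2 ≤ n) (A B p q : ℝ) (hp : 0 < p) (hq : 0 < q)
    (hsub : (n : ℝ) - 2 < ((n : ℝ) + A) / (p + 1) + ((n : ℝ) + B) / (q + 1))
    (hreg : n = 2 ∨ p * q ≤ 1 ∨ (n = 4 ∧ ((A ≤ -1 / 5 ∧ B ≤ -1 / 5) ∨
      20 / 9 ≤ 2 * (p + 1) / (p * q - 1) + 2 * (q + 1) / (p * q - 1))) ∨
      (5 ≤ n ∧ ((A ≤ -2 / (3 * (n : ℝ)) ∧ B ≤ -2 / (3 * (n : ℝ))) ∨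
        (n : ℝ) - 2 + 3 * n / (10 * (n + 2)) ≤
          2 * (p + 1) / (p * q - 1) + 2 * (q + 1) / (p * q - 1)))) :
    ¬ ∃ u v : (Fin n → ℝ) → ℝ, ContDiffOn ℝ 2 u {0}ᶜ ∧ ContDiffOn ℝ 2 v {0}ᶜ ∧
      Continuous u ∧ Continuous v ∧ (∀ x, 0 < u x) ∧ (∀ x, 0 < v x) ∧
      (∀ x, x ≠ 0 → ∑ i : Fin n,
        fderiv ℝ (fun y => fderiv ℝ u y (Pi.single i 1)) x (Pi.single i 1) =
          -(Real.sqrt (∑ i, x i ^ 2) ^ A * v x ^ p)) ∧
      (∀ x, x ≠ 0 → ∑ i : Fin n,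
        fderiv ℝ (fun y => fderiv ℝ v y (Pi.single i 1)) x (Pi.single i 1) =
          -(Real.sqrt (∑ i, x i ^ 2) ^ B * u x ^ q)) := by
  rintro ⟨u, v, h1, h2, h3, h4, h5, h6, h7, h8⟩
  have er : ∀ (s : ℝ) (x : Fin n → ℝ), Real.sqrt (∑ i, x i ^ 2) ^ s = Weighted.rw' s x := by
    intro s x
    rw [Weighted.rw', show sqn x = ∑ i, x i ^ 2 by simp [sqn], Real.sqrt_eq_rpow,
      ← Real.rpow_mul (Finset.sum_nonneg fun i _ => sq_nonneg (x i))]
    ring_nf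
  have hsol : Weighted.IsSolW A B p q u v := ⟨h1, h2, h3, h4, h5, h6,
    fun x hx => (h7 x hx).trans (by rw [er]), fun x hx => (h8 x hx).trans (by rw [er])⟩
  rcases eq_or_lt_of_le hn with hn2 | hn3
  · exact Weighted.no_solution_two hn2.symm hsol
  rcases le_or_gt (p * q) 1 with hle | hpq
  · exact Weighted.no_solution_of_pq_le_one hn3 hsol hp hq hle
  have hd : 0 < p * q - 1 := by linarith
  simp only [← add_div, le_div_iff₀ hd, not_le.2 hpq, hn3.ne', false_or] at hreg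
  rcases hreg with ⟨h4, ⟨hA, hB⟩ | hr⟩ | ⟨hn, ⟨hA, hB⟩ | hr⟩
  · exact Four.no_solution h4 hp hq hpq (Four.region_of_weights h4 hp hq hA hB hsub) hsub
      ⟨u, v, hsol⟩
  · exact Four.no_solution h4 hp hq hpq (by linarith) hsub ⟨u, v, hsol⟩
  · rw [neg_div] at hA hB
    have hN : (5 : ℝ) ≤ n := by exact_mod_cast hn
    refine Weighted.no_solution_thin hn hp hq hpq hsub (Weighted.region_of_small_weights hn hp hq
      ?_ hA hB hsub) ⟨u, v, hsol⟩
    rw [show Thin.lowSum n = ((10 * ((n : ℝ) ^ 2 - 4) + 3 * n)) / (10 * (n + 2)) by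
      simp only [Thin.lowSum]; field_simp; ring, div_mul_div_comm,
      div_le_div_iff₀ (by positivity) (by positivity)]
    nlinarith [mul_nonneg (mul_nonneg (by linarith : (0 : ℝ) ≤ n - 5)
      (by linarith : (0 : ℝ) ≤ n + 8)) (by linarith : (0 : ℝ) ≤ n + 2)]
  · exact Weighted.no_solution_thin hn hp hq hpq hsub (by unfold Thin.lowSum; linarith)
      ⟨u, v, hsol⟩

end Vale.Agent.Results.P100.WeightedStrip
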